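import Vale.Agent.P184Z.Bia

/-!
# The form on the cylinder and its curvature
-/

open scoped ContDiff
open MeasureTheory

noncomputable section

namespace Vale.Agent.P184Z.CWa

open Vale.Agent.P184.H38 Vale.Agent.P184.H460 Bia

variable {n : ℕ}

/-- The segment between two forms, as a form on the cylinder. -/
def Th (θ0 θ1 : Form n) (z : ℝ × Vn n) : (ℝ × Vn n) →L[ℝ] ℝ :=
  ((1 - z.1) • θ0 z.2 + z.1 • θ1 z.2).comp (ContinuousLinearMap.snd ℝ ℝ (Vn n))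

theorem contDiff_Th {θ0 θ1 : Form n} (h0 : ContDiff ℝ ∞ θ0) (h1 : ContDiff ℝ ∞ θ1) :
    ContDiff ℝ ∞ (Th θ0 θ1) :=
  (((contDiff_const.sub contDiff_fst).smul (h0.comp contDiff_snd)).add
    (contDiff_fst.smul (h1.comp contDiff_snd))).clm_comp contDiff_const

theorem fderiv_apply_const {E : Type} [NormedAddCommGroup E] [NormedSpace ℝ E] {F : Type}
    [NormedAddCommGroup F] [NormedSpace ℝ F] {Θ : E → F →L[ℝ] ℝ} {z : E}
    (h : DifferentiableAt ℝ Θ z) (v : E) (w : F) :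
    fderiv ℝ Θ z v w = fderiv ℝ (fun z => Θ z w) z v := by
  rw [fderiv_clm_apply h (differentiableAt_const w)]
  simp

theorem fderiv_Th {θ0 θ1 : Form n} (h0 : ContDiff ℝ ∞ θ0) (h1 : ContDiff ℝ ∞ θ1)
    (z v w : ℝ × Vn n) : fderiv ℝ (Th θ0 θ1) z v w =
      v.1 * (θ1 z.2 w.2 - θ0 z.2 w.2) + (1 - z.1) * fderiv ℝ θ0 z.2 v.2 w.2 +
        z.1 * fderiv ℝ θ1 z.2 v.2 w.2 := by
  rw [fderiv_apply_const ((contDiff_Th h0 h1).differentiable (by simp) z)]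
  have k : ∀ {θ : Form n}, ContDiff ℝ ∞ θ → HasFDerivAt (fun z : ℝ × Vn n => θ z.2 w.2)
      (((ContinuousLinearMap.apply ℝ ℝ w.2).comp (fderiv ℝ θ z.2)).comp
        (ContinuousLinearMap.snd ℝ ℝ (Vn n))) z := fun h =>
    ((ContinuousLinearMap.apply ℝ ℝ w.2).hasFDerivAt.comp z.2
      (h.differentiable (by simp) z.2).hasFDerivAt).comp z hasFDerivAt_snd
  have h2 := (((hasFDerivAt_fst (𝕜 := ℝ) (p := z)).const_sub 1).fun_mul (k h0)).fun_add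
    ((hasFDerivAt_fst (𝕜 := ℝ) (p := z)).fun_mul (k h1))
  have h3 : (fun z : ℝ × Vn n => Th θ0 θ1 z w) =
      fun z : ℝ × Vn n => (1 - z.1) * θ0 z.2 w.2 + z.1 * θ1 z.2 w.2 := rfl
  rw [h3, h2.fderiv]
  simp
  ring

/-- The curvature on the cylinder. -/
def Sc (θ0 θ1 : Form n) (z v w : ℝ × Vn n) : ℝ :=
  fderiv ℝ (Th θ0 θ1) z v w - fderiv ℝ (Th θ0 θ1) z w v

/-- The vectors on the cylinder. -/
def em : Option (Vn n) → ℝ × Vn n
  | none => (1, 0)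
  | some v => (0, v)

theorem Sc_em {θ0 θ1 : Form n} (h0 : ContDiff ℝ ∞ θ0) (h1 : ContDiff ℝ ∞ θ1) (a : ℝ) (s : Vn n)
    (x y : Option (Vn n)) : Sc θ0 θ1 (a, s) (em x) (em y) = ext θ0 θ1 a s x y := by
  rw [Sc, fderiv_Th h0 h1, fderiv_Th h0 h1]
  rcases x with _ | x <;> rcases y with _ | y <;> simp [em, ext, cur]
  ring

theorem contDiff_Sc {θ0 θ1 : Form n} (h0 : ContDiff ℝ ∞ θ0) (h1 : ContDiff ℝ ∞ θ1)
    (L : List (ℝ × Vn n)) : ContDiff ℝ ∞ fun z => wk (Sc θ0 θ1 z) L := by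
  have h : ContDiff ℝ ∞ (fderiv ℝ (Th θ0 θ1)) := (contDiff_infty_iff_fderiv.1 (contDiff_Th h0 h1)).2
  exact contDiff_wk _ (fun a b => ((h.clm_apply contDiff_const).clm_apply contDiff_const).sub
    ((h.clm_apply contDiff_const).clm_apply contDiff_const)) L

theorem cur_pull {m : ℕ} {θ : Form n} (h : ContDiff ℝ ∞ θ) {ϑ : Form m} (L : Vn m →L[ℝ] Vn n)
    (c : Vn n) (hϑ : ∀ s v, ϑ s v = θ (L s + c) (L v)) (s v w : Vn m) :
    cur ϑ s v w = cur θ (L s + c) (L v) (L w) := by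
  have h1 : ϑ = fun s => (θ (L s + c)).comp L := by
    funext s
    ext1 v
    exact hϑ s v
  have h2 : ContDiff ℝ ∞ ϑ := by
    rw [h1]
    exact (h.comp (L.contDiff.add contDiff_const)).clm_comp contDiff_const
  have h3 : ∀ v w : Vn m, fderiv ℝ ϑ s v w = fderiv ℝ θ (L s + c) (L v) (L w) := by
    intro v w
    rw [fderiv_apply_const (h2.differentiable (by simp) s), funext fun s => hϑ s w]
    have h4 := ((ContinuousLinearMap.apply ℝ ℝ (L w)).hasFDerivAt.comp (L s + c)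
      (h.differentiable (by simp) (L s + c)).hasFDerivAt).comp s (L.hasFDerivAt.add_const c)
    exact congrArg (fun f : Vn m →L[ℝ] ℝ => f v) h4.fderiv
  rw [cur, cur, h3, h3]

theorem ext_pull {m : ℕ} {θ0 θ1 : Form n} (h0 : ContDiff ℝ ∞ θ0) (h1 : ContDiff ℝ ∞ θ1)
    {ϑ0 ϑ1 : Form m} (L : Vn m →L[ℝ] Vn n) (c : Vn n)
    (k0 : ∀ s v, ϑ0 s v = θ0 (L s + c) (L v)) (k1 : ∀ s v, ϑ1 s v = θ1 (L s + c) (L v))
    (a : ℝ) (s : Vn m) (x y : Option (Vn m)) :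
    ext ϑ0 ϑ1 a s x y = ext θ0 θ1 a (L s + c) (x.map L) (y.map L) := by
  rcases x with _ | x <;> rcases y with _ | y <;>
    simp only [ext, Option.map_none, Option.map_some, k0, k1, cur_pull h0 L c k0,
      cur_pull h1 L c k1]

/-- The transgression form on a family of vectors. -/
def W (θ0 θ1 : Form n) {k : ℕ} (u : Fin k → Vn n) (z : ℝ × Vn n) : ℝ :=
  wk (Sc θ0 θ1 z) ((1, 0) :: List.ofFn fun i => (0, u i))

theorem contDiff_W {θ0 θ1 : Form n} (h0 : ContDiff ℝ ∞ θ0) (h1 : ContDiff ℝ ∞ θ1) {k : ℕ}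
    (u : Fin k → Vn n) : ContDiff ℝ ∞ (W θ0 θ1 u) := contDiff_Sc h0 h1 _

theorem W_pull {m : ℕ} {θ0 θ1 : Form n} (h0 : ContDiff ℝ ∞ θ0) (h1 : ContDiff ℝ ∞ θ1)
    {ϑ0 ϑ1 : Form m} (L : Vn m →L[ℝ] Vn n) (c : Vn n)
    (k0 : ∀ s v, ϑ0 s v = θ0 (L s + c) (L v)) (k1 : ∀ s v, ϑ1 s v = θ1 (L s + c) (L v))
    (a : ℝ) (s : Vn m) {k : ℕ} (u : Fin k → Vn m) :
    wk (ext ϑ0 ϑ1 a s) (none :: List.ofFn fun i => some (u i)) =
      W θ0 θ1 (fun i => L (u i)) (a, L s + c) := by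
  rw [← wk_map (ext ϑ0 ϑ1 a s) (Sc θ0 θ1 (a, L s + c)) (fun x => em (x.map L)) _
    (fun x _ y _ => by rw [Sc_em h0 h1, ext_pull h0 h1 L c k0 k1]), List.map_cons, List.map_ofFn]
  rfl

theorem W_eq_pfA (θ0 θ1 : Form n) {k : ℕ} (u : Fin k → Vn n) (z : ℝ × Vn n) :
    W θ0 θ1 u z = pfA (altF (fderiv ℝ (Th θ0 θ1) z)) (altF_alt _) (k + 1)
      (Fin.cons (α := fun _ => ℝ × Vn n) (1, 0) fun i => (0, u i)) := by
  rw [pfA_apply, ← wk_eq_pf, List.ofFn_succ]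
  rfl

theorem W_add (θ0 θ1 : Form n) {k : ℕ} (u u' u'' : Fin k → Vn n) (i : Fin k)
    (h : u i = u' i + u'' i) (h' : ∀ j, j ≠ i → u' j = u j) (h'' : ∀ j, j ≠ i → u'' j = u j)
    (z : ℝ × Vn n) : W θ0 θ1 u z = W θ0 θ1 u' z + W θ0 θ1 u'' z := by
  have key : ∀ w : Fin k → Vn n, (∀ j, j ≠ i → w j = u j) →
      (Fin.cons (α := fun _ => ℝ × Vn n) (1, 0) fun i => (0, w i)) =
        Function.update (Fin.cons (α := fun _ => ℝ × Vn n) (1, 0) fun i => (0, u i)) i.succ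
          (0, w i) := by
    intro w hw
    rw [← Fin.cons_update]
    congr 1
    funext j
    by_cases hj : j = i
    · rw [hj, Function.update_self]
    · rw [Function.update_of_ne hj, hw j hj]
  rw [W_eq_pfA, W_eq_pfA, W_eq_pfA, key u' h', key u'' h'', ← AlternatingMap.map_update_add,
    Prod.mk_add_mk, add_zero, ← h, ← key u fun _ _ => rfl]

theorem wk_cur0 {θ0 θ1 : Form n} (h0 : ContDiff ℝ ∞ θ0) (h1 : ContDiff ℝ ∞ θ1) {k : ℕ}
    (u : Fin k → Vn n) (s : Vn n) :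
    wk (Sc θ0 θ1 (0, s)) (List.ofFn fun i => (0, u i)) = wk (cur θ0 s) (List.ofFn u) := by
  rw [← wk_map (cur θ0 s) (Sc θ0 θ1 (0, s)) (fun x => em (some x)) _
    (fun x _ y _ => by rw [Sc_em h0 h1]; simp [ext]), List.map_ofFn]
  rfl

theorem wk_cur1 {θ0 θ1 : Form n} (h0 : ContDiff ℝ ∞ θ0) (h1 : ContDiff ℝ ∞ θ1) {k : ℕ}
    (u : Fin k → Vn n) (s : Vn n) :
    wk (Sc θ0 θ1 (1, s)) (List.ofFn fun i => (0, u i)) = wk (cur θ1 s) (List.ofFn u) := by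
  rw [← wk_map (cur θ1 s) (Sc θ0 θ1 (1, s)) (fun x => em (some x)) _
    (fun x _ y _ => by rw [Sc_em h0 h1]; simp [ext]), List.map_ofFn]
  rfl

/-- The Bianchi identity on the cylinder. -/
theorem bianchi_cyl {θ0 θ1 : Form n} (h0 : ContDiff ℝ ∞ θ0) (h1 : ContDiff ℝ ∞ θ1) {k : ℕ}
    (u : Fin (k + 1) → Vn n) (z : ℝ × Vn n) :
    fderiv ℝ (fun z => wk (Sc θ0 θ1 z) (List.ofFn fun i => (0, u i))) z (1, 0) =
      ∑ i : Fin (k + 1), (-1 : ℝ) ^ (i : ℕ) *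
        fderiv ℝ (W θ0 θ1 fun j => u (i.succAbove j)) z (0, u i) := by
  have h := bianchi (Th θ0 θ1) (contDiff_Th h0 h1) ((1, 0) :: List.ofFn fun i => (0, u i)) z
  simp only [List.length_cons] at h
  rw [Fin.sum_univ_succ] at h
  simp only [Fin.val_zero, pow_zero, one_mul, List.get_cons_zero, List.eraseIdx_cons_zero,
    Fin.val_succ, List.eraseIdx_cons_succ, pow_succ, mul_neg, mul_one, neg_mul,
    Finset.sum_neg_distrib] at h
  refine (add_neg_eq_zero.1 h).trans ?_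
  refine Fintype.sum_equiv (finCongr List.length_ofFn) _ _ fun i => ?_
  have h2 := Vale.Agent.P184.H460.eraseIdx_ofFn (fun i => ((0 : ℝ), u i))
    (finCongr List.length_ofFn i)
  have h3 : ((finCongr List.length_ofFn i : Fin (k + 1)) : ℕ) = i := rfl
  rw [h3] at h2
  rw [h2, h3]
  congr 2
  change (List.ofFn fun i => ((0 : ℝ), u i)).get i = _
  rw [List.get_ofFn]
  rfl

end Vale.Agent.P184Z.CWa
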